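import Vale.Agent.P155.NT743.FM
import Vale.Agent.P155.NT905.DetNT
import Vale.Agent.P155.NT.Harm

/-!
# P155, NT: the first moment at a stopping time of the exploration
-/

namespace Vale.Agent.P155.NT743

open Finset SW HT T905 T802 J S743 G45 H904 H12 S862 E4 NT905 T862 NT

/-- an event and a test function which are determined by the exploration at the time `τ` -/
structure FMs {T : Temp} {xS : ℤ} (τ : Stop T.V xS) (Dom : Conf → Prop)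
    (φ : Conf → Pt → ℝ) : Prop where
  new : ∀ ω ∈ DD T.V, Dom ω → τ.New ω
  domA : ∀ ω ∈ DD T.V, ∀ ω' ∈ DD T.V, OnE (τ.E ω) ω ω' → (Dom ω' ↔ Dom ω)
  domU : UInv T.V Dom
  φA : ∀ ω ∈ DD T.V, Dom ω → ∀ ω' ∈ DD T.V, OnE (τ.E ω) ω ω' → φ ω' = φ ω
  φU : ∀ ω ∈ DD T.V, Dom ω → ∀ ω' ∈ DD T.V, UEq ω ω' → φ ω' = φ ω

theorem FMs.fmd {T : Temp} {xS : ℤ} {τ : Stop T.V xS} {Dom : Conf → Prop}
    {φ : Conf → Pt → ℝ} (h : FMs τ Dom φ) : FMd T τ.X Dom τ.E τ.L φ where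
  expl := τ.isExpl
  domA := fun ω hω ω' hω' => h.domA ω hω ω' (Stop.atom_dd hω') (Stop.atom_onE hω')
  domU := h.domU
  EA := fun _ hω _ _ hω' => Stop.atom_E hω hω'
  EU := fun _ hω _ _ hω' hu => τ.E_uns hω hω' hu
  φA := fun ω hω hd ω' hω' => h.φA ω hω hd ω' (Stop.atom_dd hω') (Stop.atom_onE hω')
  φU := h.φU
  loop := stLoop Dom h.new
  cp := fun _ hω _ => Stop.cpr hω
  hin := fun _ hω _ _ hv => Stop.hin hω hv

open Classical in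
/-- the layer function away from the box -/
noncomputable def farS {T : Temp} {xS : ℤ} (τ : Stop T.V xS) (φ : Conf → Pt → ℝ) (s N : ℕ)
    (q : Pt) (ω : Conf) : ℝ :=
  ∑ x ∈ (oe_finite T (τ.E ω)).toFinset.filter (fun x => x ∉ box q N), |gL T τ.E φ s ω x|

open Classical in
/-- the layer function in the part of the box which is close to the boundary of the polygon and
to the explored loop -/
noncomputable def zoneS {T : Temp} {xS : ℤ} (τ : Stop T.V xS) (φ : Conf → Pt → ℝ) (s N : ℕ)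
    (q : Pt) (h : ℝ) (ω : Conf) : ℝ :=
  ∑ x ∈ (box q N).filter (fun x => (dF T.faceSet x : ℝ) < h ∧
    ∃ v ∈ τ.L ω, v ∈ box x (s ^ 2 + 1)), |gL T τ.E φ s ω x|

theorem farS_nonneg {T : Temp} {xS : ℤ} (τ : Stop T.V xS) (φ : Conf → Pt → ℝ) (s N : ℕ)
    (q : Pt) (ω : Conf) : 0 ≤ farS τ φ s N q ω := Finset.sum_nonneg fun _ _ => abs_nonneg _

theorem zoneS_nonneg {T : Temp} {xS : ℤ} (τ : Stop T.V xS) (φ : Conf → Pt → ℝ) (s N : ℕ)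
    (q : Pt) (h : ℝ) (ω : Conf) : 0 ≤ zoneS τ φ s N q h ω :=
  Finset.sum_nonneg fun _ _ => abs_nonneg _

/-- the size of `ρ0` -/
theorem rho_num {K n R : ℕ} {γ β a0 : ℝ} (hγ : 0 < γ) (hγ1 : γ ≤ 1) (hβ : 0 < β) (hK : 1 ≤ K)
    (hn1 : 1 ≤ n) (hR : 1 ≤ R) (hn : (R : ℝ) ^ a0 ≤ n) :
    ((⌈((K * n : ℕ) : ℝ) ^ (1 - γ ^ 2 / 1024)⌉₊ : ℝ) / n) ^ β ≤
      (2 * K) ^ β * (R : ℝ) ^ (-(a0 * (γ ^ 2 / 1024) * β)) := by
  have hKr : (1 : ℝ) ≤ K := by exact_mod_cast hK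
  have hnr : (1 : ℝ) ≤ n := by exact_mod_cast hn1
  have hn0 : (0 : ℝ) < n := by linarith
  have hRr : (1 : ℝ) ≤ R := by exact_mod_cast hR
  have hR0 : (0 : ℝ) < R := by linarith
  have e : ((K * n : ℕ) : ℝ) = K * n := by push_cast; ring
  have hKn : (1 : ℝ) ≤ ((K * n : ℕ) : ℝ) := by rw [e]; nlinarith
  have hg : 0 < γ ^ 2 / 1024 := by positivity
  have hg1 : γ ^ 2 / 1024 ≤ 1 := by nlinarith
  have h1 : (1 : ℝ) ≤ ((K * n : ℕ) : ℝ) ^ (1 - γ ^ 2 / 1024) :=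
    Real.one_le_rpow hKn (by linarith)
  have h2 : (⌈((K * n : ℕ) : ℝ) ^ (1 - γ ^ 2 / 1024)⌉₊ : ℝ) ≤
      2 * ((K * n : ℕ) : ℝ) ^ (1 - γ ^ 2 / 1024) := by
    have := Nat.ceil_lt_add_one (a := ((K * n : ℕ) : ℝ) ^ (1 - γ ^ 2 / 1024)) (by positivity)
    linarith
  have h3 : ((K * n : ℕ) : ℝ) ^ (1 - γ ^ 2 / 1024) ≤ K * (n * (R : ℝ) ^ (-(a0 * (γ ^ 2 / 1024)))) := by
    rw [Real.rpow_sub (by linarith), Real.rpow_one]
    have h4 : (R : ℝ) ^ (a0 * (γ ^ 2 / 1024)) ≤ ((K * n : ℕ) : ℝ) ^ (γ ^ 2 / 1024) := by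
      rw [Real.rpow_mul hR0.le]
      refine Real.rpow_le_rpow (by positivity) (hn.trans ?_) hg.le
      rw [e]
      nlinarith
    rw [Real.rpow_neg hR0.le, e, ← mul_assoc]
    rw [e] at h4
    rw [div_eq_mul_inv]
    refine mul_le_mul_of_nonneg_left (inv_anti₀ (by positivity) h4) (by positivity)
  have h5 : (⌈((K * n : ℕ) : ℝ) ^ (1 - γ ^ 2 / 1024)⌉₊ : ℝ) / n ≤
      2 * K * (R : ℝ) ^ (-(a0 * (γ ^ 2 / 1024))) := by
    rw [div_le_iff₀ hn0]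
    calc _ ≤ 2 * ((K * n : ℕ) : ℝ) ^ (1 - γ ^ 2 / 1024) := h2
      _ ≤ 2 * (K * (n * (R : ℝ) ^ (-(a0 * (γ ^ 2 / 1024))))) := by linarith
      _ = _ := by ring
  calc _ ≤ (2 * K * (R : ℝ) ^ (-(a0 * (γ ^ 2 / 1024)))) ^ β :=
        Real.rpow_le_rpow (by positivity) h5 hβ.le
    _ = _ := by
        rw [Real.mul_rpow (by positivity) (by positivity), ← Real.rpow_mul hR0.le]
        congr 2
        ring

open Classical in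
/-- pointwise bound -/
theorem fm_point {T : Temp} {xS : ℤ} {τ : Stop T.V xS} {φ : Conf → Pt → ℝ} {ω : Conf}
    (hω : ω ∈ DD T.V) {C0 M e h : ℝ} {n s N : ℕ} {p q : Pt} {B : Prop} (hC0 : 0 ≤ C0)
    (he : 0 ≤ e) (hn1 : 1 ≤ n) (s1 : 8 ≤ s) (s7 : 8 * s ≤ n)
    (hp : p ∉ OE T (τ.E ω)) (hbump : IsBump p n (C0 / (n : ℝ) ^ 2) (φ ω))
    (hmass : (OE T (τ.E ω)).Finite → CPr (OE T (τ.E ω)) → p ∉ OE T (τ.E ω) → 1 ≤ n → 1 ≤ s →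
      8 * s ≤ n → IsCut (OE T (τ.E ω)) s (32 ^ 4) (cutf (OE T (τ.E ω)) s) →
      (∀ y, |φ ω y| ≤ E4.dens C0 p n y) →
      IsGreen (OE T (τ.E ω)) (φ ω) (pot (OE T (τ.E ω)) (φ ω)) →
      (∀ S : Finset Pt, ∑ x ∈ S, |fL (OE T (τ.E ω)) (φ ω) (cutf (OE T (τ.E ω)) s)
        (pot (OE T (τ.E ω)) (φ ω)) x| ≤ M))
    (hmain : ¬ B → (∀ y, |φ ω y| ≤ E4.dens C0 p n y) →
      IsCut (OE T (τ.E ω)) s (32 ^ 4) (cutf (OE T (τ.E ω)) s) →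
      IsGreen (OE T (τ.E ω)) (φ ω) (pot (OE T (τ.E ω)) (φ ω)) →
      ∀ hO : (OE T (τ.E ω)).Finite,
      |mass ω (gL T τ.E φ s ω) (τ.L ω) - ∑ x ∈ hO.toFinset, φ ω x * τ.Hf ω x| ≤
        farS τ φ s N q ω + zoneS τ φ s N q h ω + e) :
    |mass ω (gL T τ.E φ s ω) (τ.L ω) -
      ∑ x ∈ (oe_finite T (τ.E ω)).toFinset, φ ω x * τ.Hf ω x| ≤
      e + (farS τ φ s N q ω + zoneS τ φ s N q h ω + (M + 128 * C0) * (if B then 1 else 0)) := by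
  have hφ : ∀ y, |φ ω y| ≤ E4.dens C0 p n y := by
    intro y
    by_cases hy : y ∈ box p n
    · have h1 := hbump.2 0 0 (by norm_num) y
      simp only [Function.iterate_zero, id_eq, add_zero, pow_zero, mul_one] at h1
      refine h1.trans (le_dens hC0 hn1 ?_)
      exact mem_box_dn905.1 hy
    · rw [hbump.1 y hy, abs_zero]
      exact dens_nonneg hC0 _ _ _
  have hO := oe_finite T (τ.E ω)
  have hcut : IsCut (OE T (τ.E ω)) s (32 ^ 4) (cutf (OE T (τ.E ω)) s) :=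
    cutf_isCut (exists_notMem hO) s1 le_rfl
  have hu := pot_spec hO (φ ω)
  have m1 := hmass hO (Stop.cpr hω) hp hn1 (by omega) s7 hcut hφ hu
  have hfar0 := farS_nonneg τ φ s N q ω
  have hzone0 := zoneS_nonneg τ φ s N q h ω
  by_cases hbad : B
  · rw [if_pos hbad, mul_one]
    have h0 := fL_zero_off hO (by omega : 1 ≤ s) hcut hu
    have g1 : |mass ω (gL T τ.E φ s ω) (τ.L ω)| ≤ M := by
      rw [show mass ω (gL T τ.E φ s ω) (τ.L ω) =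
        ∑ x ∈ hO.toFinset, gL T τ.E φ s ω x * (if surr ω (τ.L ω) x then 1 else 0) from
        mass_eq_sum h0 ω (τ.L ω)]
      refine (Finset.abs_sum_le_sum_abs _ _).trans ((Finset.sum_le_sum fun x _ => ?_).trans
        (m1 hO.toFinset))
      rw [abs_mul]
      refine mul_le_of_le_one_right (abs_nonneg _) ?_
      split_ifs <;> simp
    have g2 : |∑ x ∈ hO.toFinset, φ ω x * τ.Hf ω x| ≤ 128 * C0 := by
      refine (Finset.abs_sum_le_sum_abs _ _).trans ((Finset.sum_le_sum fun x _ => ?_).trans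
        (dens_mass hC0 p hn1 hO.toFinset))
      rw [abs_mul]
      refine (mul_le_of_le_one_right (abs_nonneg _) ?_).trans (hφ x)
      rw [abs_of_nonneg ((τ.Hf_spec ω).nonneg x)]
      exact (τ.Hf_spec ω).le_one x
    have g3 : |mass ω (gL T τ.E φ s ω) (τ.L ω) -
        ∑ x ∈ (oe_finite T (τ.E ω)).toFinset, φ ω x * τ.Hf ω x| ≤ M + 128 * C0 :=
      (abs_sub _ _).trans (add_le_add g1 g2)
    linarith
  · rw [if_neg hbad, mul_zero, add_zero]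
    have h2 := hmain hbad hφ hcut hu hO
    linarith

/-- the size of `ρ0`, second form -/
theorem rho_num2 {K n R : ℕ} {γ β a0 c CT : ℝ} (hCT : 0 ≤ CT) (hγ : 0 < γ) (hγ1 : γ ≤ 1)
    (hβ : 0 < β) (hK : 1 ≤ K) (hn1 : 1 ≤ n) (hR : 1 ≤ R) (hn : (R : ℝ) ^ a0 ≤ n)
    (k5 : c ≤ a0 * (γ ^ 2 / 1024) * β) :
    CT * ((⌈((K * n : ℕ) : ℝ) ^ (1 - γ ^ 2 / 1024)⌉₊ : ℝ) / n) ^ β ≤
      CT * (2 * K) ^ β * (R : ℝ) ^ (-c) := by
  have hRr : (1 : ℝ) ≤ R := by exact_mod_cast hR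
  have h1 := rho_num (a0 := a0) hγ hγ1 hβ hK hn1 hR hn
  have h2 : (R : ℝ) ^ (-(a0 * (γ ^ 2 / 1024) * β)) ≤ (R : ℝ) ^ (-c) :=
    Real.rpow_le_rpow_of_exponent_le hRr (by linarith)
  calc _ ≤ CT * ((2 * K) ^ β * (R : ℝ) ^ (-(a0 * (γ ^ 2 / 1024) * β))) :=
        mul_le_mul_of_nonneg_left h1 hCT
    _ ≤ CT * ((2 * K) ^ β * (R : ℝ) ^ (-c)) :=
        mul_le_mul_of_nonneg_left (mul_le_mul_of_nonneg_left h2 (by positivity)) hCT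
    _ = _ := by ring

/-- the size of `s` -/
theorem s_num {s R : ℕ} {a β c CT : ℝ} (s1 : 8 ≤ s) (hCT : 0 ≤ CT) (hβ : 0 < β)
    (hRr : (1 : ℝ) ≤ R) (s8 : (R : ℝ) ^ a ≤ s) (k4 : c ≤ a * β) :
    CT * ((2 * (s : ℝ) + 1) / ((s ^ 2 - 2 * s : ℕ) + 1)) ^ β ≤ CT * 6 ^ β * (R : ℝ) ^ (-c) := by
  have hRpos : (0 : ℝ) < R := by linarith
  have h1 : (8 : ℝ) ≤ s := by exact_mod_cast s1
  have hs0 : (0 : ℝ) < s := by linarith
  have h0 : (2 * (s : ℝ) + 1) / ((s ^ 2 - 2 * s : ℕ) + 1) ≤ 6 / (s : ℝ) := by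
    rw [div_le_div_iff₀ (by positivity) hs0]
    have h2 : ((s ^ 2 - 2 * s : ℕ) : ℝ) = (s : ℝ) ^ 2 - 2 * s := by
      rw [Nat.cast_sub (by nlinarith)]
      push_cast
      ring
    rw [h2]
    nlinarith
  have h1 : ((2 * (s : ℝ) + 1) / ((s ^ 2 - 2 * s : ℕ) + 1)) ^ β ≤ 6 ^ β * (R : ℝ) ^ (-c) := by
    calc _ ≤ (6 / (s : ℝ)) ^ β := Real.rpow_le_rpow (by positivity) h0 hβ.le
      _ ≤ (6 * ((R : ℝ) ^ (-a))) ^ β := by
          refine Real.rpow_le_rpow (by positivity) ?_ hβ.le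
          rw [div_eq_mul_inv, Real.rpow_neg hRpos.le]
          refine mul_le_mul_of_nonneg_left ?_ (by norm_num)
          exact inv_anti₀ (by positivity) s8
      _ = 6 ^ β * (R : ℝ) ^ (-(a * β)) := by
          rw [Real.mul_rpow (by norm_num) (by positivity), ← Real.rpow_mul hRpos.le]
          congr 2
          ring
      _ ≤ _ := by
          refine mul_le_mul_of_nonneg_left ?_ (by positivity)
          exact Real.rpow_le_rpow_of_exponent_le hRr (by linarith)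
  calc _ ≤ CT * (6 ^ β * (R : ℝ) ^ (-c)) := mul_le_mul_of_nonneg_left h1 hCT
    _ = _ := by ring

/-- collection of the terms -/
theorem fm_end {x e' r g C1 a b d M' P : ℝ} (hA' : e' ≤ C1 * r)
    (h : x ≤ e' + (a * r + b * r + d * r) + g + M' * (P * r)) :
    x ≤ (C1 + a + b + d + M' * P) * r + g := by
  have : (C1 + a + b + d + M' * P) * r = C1 * r + (a * r + b * r + d * r) + M' * (P * r) := by
    ring
  linarith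

open Classical in
/-- the expectations -/
theorem fm_asm {T : Temp} {E L : Conf → Set Pt} {φ H : Conf → Pt → ℝ} {Dom : Conf → Prop}
    {s : ℕ} (s1 : 8 ≤ s) {e e' M' P : ℝ} {g : Conf → ℝ} {Bd : Conf → Prop} (he : 0 ≤ e)
    (hM' : 0 ≤ M')
    (hA : |Ex T.V (fun ω => if Dom ω then mass ω (ff T E φ s ω) (L ω) else 0)| ≤ e')
    (key : ∀ ω ∈ DD T.V, (if Dom ω then |mass ω (gL T E φ s ω) (L ω) -
      ∑ x ∈ (oe_finite T (E ω)).toFinset, φ ω x * H ω x| else 0) ≤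
      e + ((if Dom ω then g ω else 0) + M' * (if Bd ω then 1 else 0)))
    (hP : Pr T.V Bd ≤ P) :
    |Ex T.V (fun ω => if Dom ω then gdif T E L φ H ω else 0)| ≤
      e' + e + Ex T.V (fun ω => if Dom ω then g ω else 0) + M' * P := by
  have hB := H12.Ex_mono (V := T.V) key
  have hsum : Ex T.V (fun ω => (if Dom ω then g ω else 0) +
        M' * (if Bd ω then (1 : ℝ) else 0)) =
      Ex T.V (fun ω => if Dom ω then g ω else 0) + M' * Pr T.V Bd := by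
    rw [Vale.Agent.P155.E.Pr_eq_avg, Ex_eq_avg, Ex_eq_avg, avg_add, avg_mul_left]
  have hsplit : Ex T.V (fun ω => if Dom ω then gdif T E L φ H ω else 0) =
      -Ex T.V (fun ω => if Dom ω then mass ω (ff T E φ s ω) (L ω) else 0) +
      Ex T.V (fun ω => if Dom ω then (mass ω (gL T E φ s ω) (L ω) -
        ∑ x ∈ (oe_finite T (E ω)).toFinset, φ ω x * H ω x) else 0) := by
    have h1 : ∀ ω, (if Dom ω then gdif T E L φ H ω else 0) =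
        (-1) * (if Dom ω then mass ω (ff T E φ s ω) (L ω) else 0) +
        (if Dom ω then (mass ω (gL T E φ s ω) (L ω) -
        ∑ x ∈ (oe_finite T (E ω)).toFinset, φ ω x * H ω x) else 0) := by
      intro ω
      by_cases h : Dom ω
      · rw [if_pos h, if_pos h, if_pos h, gdif_eq s1 ω]
        ring
      · rw [if_neg h, if_neg h, if_neg h]
        ring
    rw [funext h1]
    rw [Ex_eq_avg, Ex_eq_avg, Ex_eq_avg, avg_add, avg_mul_left]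
    ring
  have hlast : |Ex T.V (fun ω => if Dom ω then (mass ω (gL T E φ s ω) (L ω) -
        ∑ x ∈ (oe_finite T (E ω)).toFinset, φ ω x * H ω x) else 0)| ≤
      Ex T.V (fun ω => if Dom ω then |mass ω (gL T E φ s ω) (L ω) -
        ∑ x ∈ (oe_finite T (E ω)).toFinset, φ ω x * H ω x| else 0) := by
    refine (abs_Ex_le _).trans (le_of_eq ?_)
    congr 1
    funext ω
    split_ifs
    · rfl
    · exact abs_zero
  rw [hsplit]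
  refine (abs_add_le _ _).trans ?_
  rw [abs_neg]
  have hconst := Ex_const_add (V := T.V) he
    (fun ω => (if Dom ω then g ω else 0) + M' * (if Bd ω then (1 : ℝ) else 0))
  rw [hsum] at hconst
  have h9 : M' * Pr T.V Bd ≤ M' * P := mul_le_mul_of_nonneg_left hP hM'
  have h10 := hlast.trans (hB.trans hconst)
  linarith

/-- the scales, with a small exponent -/
theorem scales3 {a0 γ CT am : ℝ} (ha0 : 0 < a0) (hγ : 0 < γ) (hγ1 : γ ≤ 1) (hCT : 0 < CT) {K : ℕ}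
    (hK : 1 ≤ K) (ham : 0 < am) : ∃ a : ℝ, 0 < a ∧ a ≤ am ∧ 8 * a ≤ min a0 1 ∧
    ∃ R1 : ℕ, 1 ≤ R1 ∧ ∀ R : ℕ, R1 ≤ R → ∀ n : ℕ, (R : ℝ) ^ a0 ≤ n →
    8 ≤ ⌈((K * R : ℕ) : ℝ) ^ a⌉₊ ∧ (⌈((K * R : ℕ) : ℝ) ^ a⌉₊ : ℝ) ≤ ((K * n : ℕ) : ℝ) ^ (γ / 512) ∧
    ((⌈((K * R : ℕ) : ℝ) ^ a⌉₊ ^ 2 : ℕ) : ℝ) + 1 ≤ ((K * n : ℕ) : ℝ) ^ (γ / 512) ∧
    ⌈((K * R : ℕ) : ℝ) ^ a⌉₊ ^ 2 + 1 ≤ ⌈((K * n : ℕ) : ℝ) ^ (1 - γ ^ 2 / 1024)⌉₊ ∧
    8 * ⌈((K * n : ℕ) : ℝ) ^ (1 - γ ^ 2 / 1024)⌉₊ + 16 ≤ n ∧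
    2 * (CT * (⌈((K * n : ℕ) : ℝ) ^ (1 - γ ^ 2 / 1024)⌉₊ : ℝ)) + 2 ≤ n ∧
    8 * ⌈((K * R : ℕ) : ℝ) ^ a⌉₊ ≤ n ∧ (R : ℝ) ^ a ≤ (⌈((K * R : ℕ) : ℝ) ^ a⌉₊ : ℝ) := by
  obtain ⟨a, ha, ha8, R1, hR1, h⟩ := scales2 ha0 hγ hγ1 hCT hK
  obtain ⟨b, hb⟩ : ∃ b : ℝ, b = min a am := ⟨_, rfl⟩
  have hb0 : 0 < b := by rw [hb]; exact lt_min ha ham
  have hba : b ≤ a := by rw [hb]; exact min_le_left _ _
  refine ⟨b, hb0, by rw [hb]; exact min_le_right _ _, by linarith, max R1 ⌈(8 : ℝ) ^ (1 / b)⌉₊,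
    hR1.trans (le_max_left _ _), ?_⟩
  intro R hR n hn
  have hR1' : R1 ≤ R := (le_max_left _ _).trans hR
  have hR2 : (8 : ℝ) ^ (1 / b) ≤ R := (Nat.le_ceil _).trans (by
    exact_mod_cast (le_max_right _ _).trans hR)
  obtain ⟨g1, g2, g3, g4, g5, g6, g7, -⟩ := h R hR1' n hn
  have hR0 : 1 ≤ R := hR1.trans hR1'
  have hRr : (1 : ℝ) ≤ R := by exact_mod_cast hR0
  have hK1r : (1 : ℝ) ≤ K := by exact_mod_cast hK
  have hKR : (R : ℝ) ≤ ((K * R : ℕ) : ℝ) := by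
    push_cast
    nlinarith
  have hKR1 : (1 : ℝ) ≤ ((K * R : ℕ) : ℝ) := hRr.trans hKR
  have hRpos : (0 : ℝ) < R := by linarith
  have hle : ⌈((K * R : ℕ) : ℝ) ^ b⌉₊ ≤ ⌈((K * R : ℕ) : ℝ) ^ a⌉₊ :=
    Nat.ceil_mono (Real.rpow_le_rpow_of_exponent_le hKR1 hba)
  have hleR : (⌈((K * R : ℕ) : ℝ) ^ b⌉₊ : ℝ) ≤ (⌈((K * R : ℕ) : ℝ) ^ a⌉₊ : ℝ) := by
    exact_mod_cast hle
  have hsq : ⌈((K * R : ℕ) : ℝ) ^ b⌉₊ ^ 2 ≤ ⌈((K * R : ℕ) : ℝ) ^ a⌉₊ ^ 2 :=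
    Nat.pow_le_pow_left hle 2
  have hsqR : ((⌈((K * R : ℕ) : ℝ) ^ b⌉₊ ^ 2 : ℕ) : ℝ) ≤ ((⌈((K * R : ℕ) : ℝ) ^ a⌉₊ ^ 2 : ℕ) : ℝ) := by
    exact_mod_cast hsq
  have h8 : (8 : ℝ) ≤ (R : ℝ) ^ b := by
    have h1 : ((8 : ℝ) ^ (1 / b)) ^ b = 8 := by
      rw [← Real.rpow_mul (by norm_num), one_div_mul_cancel hb0.ne', Real.rpow_one]
    calc (8 : ℝ) = ((8 : ℝ) ^ (1 / b)) ^ b := h1.symm
      _ ≤ _ := Real.rpow_le_rpow (by positivity) hR2 hb0.le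
  have hlow : (R : ℝ) ^ b ≤ (⌈((K * R : ℕ) : ℝ) ^ b⌉₊ : ℝ) :=
    (Real.rpow_le_rpow hRpos.le hKR hb0.le).trans (Nat.le_ceil _)
  refine ⟨?_, hleR.trans g2, (add_le_add_left hsqR 1).trans g3,
    (Nat.add_le_add_right hsq 1).trans g4, g5, g6, (Nat.mul_le_mul_left 8 hle).trans g7, hlow⟩
  exact_mod_cast h8.trans hlow

open Classical in
/-- **The first-moment identity at a stopping time.** The exponent `a` of the width of the layer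
can be chosen as small as one likes. -/
theorem fm_stop_am : ∃ γ : ℝ, 0 < γ ∧ γ ≤ 1 ∧ ∀ (a0 C0 am : ℝ) (K : ℕ), 0 < a0 → 0 ≤ C0 →
    0 < am → 1 ≤ K → ∃ a : ℝ, 0 < a ∧ a ≤ am ∧ ∃ CT : ℝ, 0 < CT ∧ ∃ c : ℝ, 0 < c ∧ ∃ C : ℝ, 0 ≤ C ∧ ∃ R0 : ℕ, 1 ≤ R0 ∧
    ∀ (R n : ℕ) (T : Temp), R0 ≤ R → Skel.Fits T R → (R : ℝ) ^ a0 ≤ n → n ≤ R → ∀ s ρ0 : ℕ,
    s = ⌈((K * R : ℕ) : ℝ) ^ a⌉₊ → ρ0 = ⌈((K * n : ℕ) : ℝ) ^ (1 - γ ^ 2 / 1024)⌉₊ →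
    (8 ≤ s ∧ s ^ 2 + 1 ≤ ρ0 ∧ 8 * ρ0 + 16 ≤ n ∧ 2 * (CT * (ρ0 : ℝ)) + 2 ≤ n ∧
      ((s ^ 2 : ℕ) : ℝ) + 1 ≤ ((K * n : ℕ) : ℝ) ^ (γ / 512) ∧ (R : ℝ) ^ a ≤ s) ∧
    ∀ (xS : ℤ) (τ : Stop T.V xS) (Dom : Conf → Prop) (φ : Conf → Pt → ℝ) (p : Conf → Pt) (q : Pt),
    FMs τ Dom φ → (∀ x ∈ box q (K * n), (ρ0 : ℤ) + 1 < |x.1 - xS|) →
    (∀ ω ∈ DD T.V, Dom ω → p ω ∉ OE T (τ.E ω) ∧ IsBump (p ω) n (C0 / (n : ℝ) ^ 2) (φ ω)) →
    |Ex T.V (fun ω => if Dom ω then gdif T τ.E τ.L φ τ.Hf ω else 0)| ≤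
      C * (R : ℝ) ^ (-c) + Ex T.V (fun ω => if Dom ω then
        farS τ φ s (K * n) q ω + zoneS τ φ s (K * n) q (CT * ρ0) ω else 0) := by
  obtain ⟨γ, β, hγ, hγ1, hβ, hdet⟩ := det_nt
  obtain ⟨γ', hγ', hγ1', hmass⟩ := mass_meso
  refine ⟨γ, hγ, hγ1, ?_⟩
  intro a0 C0 am K ha0 hC0 ham hK
  have ha01 : 0 < min a0 1 := lt_min ha0 one_pos
  obtain ⟨CT, hCT, hdet⟩ := hdet (min a0 1) 1 C0 (32 ^ 4) ha01 one_pos hC0
  obtain ⟨M, hM0, hmass⟩ := hmass C0 (32 ^ 4) hC0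
  obtain ⟨a, ha, hle, ha8, R1, hR1, hsc⟩ := scales3 ha0 hγ hγ1 hCT hK ham
  obtain ⟨c1, hc1, C1, hC1, R0, hR0, hme⟩ := fm_me (C0 := C0 * (K : ℝ) ^ 6) ha
    (by linarith : 4 * a ≤ min a0 1) (min_le_right _ _)
  obtain ⟨c, hcdef⟩ : ∃ c : ℝ, c = min (min c1 1) (min (min (a0 * (γ ^ 2 / 128)) (a * β))
    (a0 * (γ ^ 2 / 1024) * β)) := ⟨_, rfl⟩
  have hc0 : 0 < c := by
    rw [hcdef]
    exact lt_min (lt_min hc1 one_pos) (lt_min (lt_min (by positivity) (by positivity))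
      (by positivity))
  have k1 : c ≤ c1 := by rw [hcdef]; exact (min_le_left _ _).trans (min_le_left _ _)
  have k2 : c ≤ 1 := by rw [hcdef]; exact (min_le_left _ _).trans (min_le_right _ _)
  have k3 : c ≤ a0 * (γ ^ 2 / 128) := by
    rw [hcdef]; exact (min_le_right _ _).trans ((min_le_left _ _).trans (min_le_left _ _))
  have k4 : c ≤ a * β := by
    rw [hcdef]; exact (min_le_right _ _).trans ((min_le_left _ _).trans (min_le_right _ _))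
  have k5 : c ≤ a0 * (γ ^ 2 / 1024) * β := by
    rw [hcdef]; exact (min_le_right _ _).trans (min_le_right _ _)
  refine ⟨a, ha, hle, CT, hCT, c, hc0,
    C1 + CT * (2 * K) ^ β + CT * K + CT * 6 ^ β + (M + 128 * C0) * CT, by positivity,
    max R0 R1, hR0.trans (le_max_left _ _), ?_⟩
  intro R n T hR hfit hn hnR s ρ0 hs hρ0
  have hRR0 : R0 ≤ R := (le_max_left _ _).trans hR
  have hRR1 : R1 ≤ R := (le_max_right _ _).trans hR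
  obtain ⟨s1, s2, s3, s4, s5, s6, s7, s8⟩ := hsc R hRR1 n hn
  rw [← hs] at s1 s2 s3 s4 s7 s8
  rw [← hρ0] at s4 s5 s6
  refine ⟨⟨s1, s4, s5, s6, s3, s8⟩, ?_⟩
  intro xS τ Dom φ p q hd hline hb
  have hR1' : 1 ≤ R := hR0.trans hRR0
  have hRr : (1 : ℝ) ≤ R := by exact_mod_cast hR1'
  have hRpos : (0 : ℝ) < R := by linarith
  have hn1 : 1 ≤ n := by omega
  have hn0 : (0 : ℝ) < n := by exact_mod_cast hn1
  have hK1r : (1 : ℝ) ≤ K := by exact_mod_cast hK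
  have hs0 : (0 : ℝ) < s := by
    have : 0 < s := by omega
    exact_mod_cast this
  have hRK : R ≤ K * R := Nat.le_mul_of_pos_left _ hK
  have hfit' : Skel.Fits T (K * R) := fits_mono hfit hRK
  -- Schwinger-Dyson
  have hA := hme (K * R) T (hRR0.trans hRK) hfit' τ.X Dom τ.E τ.L φ hd.fmd (K * n) p
    (scale_le hK hR1' hn)
    (fun ω hω h => ⟨(hb ω hω h).1, bump_scale hK hn1 hC0 (hb ω hω h).2⟩)
  rw [← hs] at hA
  have hRc : (R : ℝ) ^ (-c1) ≤ (R : ℝ) ^ (-c) := Real.rpow_le_rpow_of_exponent_le hRr (by linarith)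
  have hA' : C1 * ((K * R : ℕ) : ℝ) ^ (-c1) ≤ C1 * (R : ℝ) ^ (-c) := by
    refine mul_le_mul_of_nonneg_left (le_trans ?_ hRc) hC1
    exact Real.rpow_le_rpow_of_nonpos hRpos (by exact_mod_cast hRK) (by linarith)
  have hs2n : 8 * s ≤ s ^ 2 := by nlinarith
  obtain ⟨hP, hmain⟩ := hdet (K * R) T (Nat.mul_pos hK hR1') hfit' q (K * n) n s ρ0 (s ^ 2)
      (scale_le hK hR1' hn) (Nat.mul_le_mul_left _ hnR) (Nat.le_mul_of_pos_left _ hK) (by omega)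
      s7 s2 s3 (by rw [hρ0]; exact Nat.le_ceil _) (by omega) s4 (by omega)
  have hP' : Pr T.V (NBad T q (K * n) n s ρ0 (s ^ 2) C0 (32 ^ 4) γ CT) ≤ CT * (R : ℝ) ^ (-c) := by
    refine le_trans hP (mul_le_mul_of_nonneg_left ?_ hCT.le)
    have h2 : ((K * R : ℕ) : ℝ) ^ (-(1 : ℝ)) ≤ (R : ℝ) ^ (-(1 : ℝ)) :=
      Real.rpow_le_rpow_of_nonpos hRpos (by exact_mod_cast hRK) (by norm_num)
    exact h2.trans (Real.rpow_le_rpow_of_exponent_le hRr (by linarith))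
  -- the numbers
  have e0 : CT * ((ρ0 : ℝ) / n) ^ β ≤ CT * (2 * K) ^ β * (R : ℝ) ^ (-c) := by
    rw [hρ0]
    exact rho_num2 hCT.le hγ hγ1 hβ hK hn1 hR1' hn k5
  have e1 : CT * ((((K * n : ℕ) : ℝ) / n) ^ γ * ((K * n : ℕ) : ℝ) ^ (-(γ ^ 2 / 128))) ≤
      CT * K * (R : ℝ) ^ (-c) := by
    have h1 := num2 (CT := CT) hγ1 hCT.le hK hn1 le_rfl hR1' hn (γ := γ) (a0 := a0)
    rw [div_self hn0.ne', mul_one] at h1
    refine h1.trans (mul_le_mul_of_nonneg_left ?_ (by positivity))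
    exact Real.rpow_le_rpow_of_exponent_le hRr (by linarith)
  have e2 := s_num (c := c) s1 hCT.le hβ hRr s8 k4
  -- pointwise
  have key : ∀ ω ∈ DD T.V, (if Dom ω then |mass ω (gL T τ.E φ s ω) (τ.L ω) -
      ∑ x ∈ (oe_finite T (τ.E ω)).toFinset, φ ω x * τ.Hf ω x| else 0) ≤
      (CT * (2 * K) ^ β * (R : ℝ) ^ (-c) + CT * K * (R : ℝ) ^ (-c) +
        CT * 6 ^ β * (R : ℝ) ^ (-c)) +
      ((if Dom ω then farS τ φ s (K * n) q ω + zoneS τ φ s (K * n) q (CT * ρ0) ω else 0) +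
        (M + 128 * C0) *
          (if NBad T q (K * n) n s ρ0 (s ^ 2) C0 (32 ^ 4) γ CT ω then 1 else 0)) := by
    intro ω hω
    by_cases h : Dom ω
    · rw [if_pos h, if_pos h]
      obtain ⟨hp, hbump⟩ := hb ω hω h
      refine fm_point (B := NBad T q (K * n) n s ρ0 (s ^ 2) C0 (32 ^ 4) γ CT ω) hω hC0
        (by positivity) hn1 s1 s7 hp hbump
        (fun a1 a2 a3 a4 a5 a6 a7 a8 a9 => (hmass _ _ _ _ _ _ _ a1 a2 a3 a4 a5 a6 a7 a8 a9).1) ?_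
      intro hbad hφ hcut hu hO
      have h2 := hmain ω hω hbad xS τ (hd.new ω hω h) hline (τ.Hf ω) (τ.Hf_spec ω) (p ω) (φ ω)
          (pot (OE T (τ.E ω)) (φ ω)) (cutf (OE T (τ.E ω)) s) hp hφ hcut hu hO
      exact h2.trans (add_le_add (le_of_eq rfl) (add_le_add (add_le_add e0 e1) e2))
    · rw [if_neg h, if_neg h]
      have hb0 : 0 ≤ (M + 128 * C0) *
          (if NBad T q (K * n) n s ρ0 (s ^ 2) C0 (32 ^ 4) γ CT ω then (1 : ℝ) else 0) := by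
        split_ifs
        · positivity
        · simp
      positivity
  exact fm_end hA' (fm_asm s1 (by positivity) (by positivity) hA key hP')

open Classical in
/-- **The first-moment identity at a stopping time.** -/
theorem fm_stop : ∃ γ : ℝ, 0 < γ ∧ γ ≤ 1 ∧ ∀ (a0 C0 : ℝ) (K : ℕ), 0 < a0 → 0 ≤ C0 → 1 ≤ K →
    ∃ a : ℝ, 0 < a ∧ ∃ CT : ℝ, 0 < CT ∧ ∃ c : ℝ, 0 < c ∧ ∃ C : ℝ, 0 ≤ C ∧ ∃ R0 : ℕ, 1 ≤ R0 ∧
    ∀ (R n : ℕ) (T : Temp), R0 ≤ R → Skel.Fits T R → (R : ℝ) ^ a0 ≤ n → n ≤ R → ∀ s ρ0 : ℕ,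
    s = ⌈((K * R : ℕ) : ℝ) ^ a⌉₊ → ρ0 = ⌈((K * n : ℕ) : ℝ) ^ (1 - γ ^ 2 / 1024)⌉₊ →
    (8 ≤ s ∧ s ^ 2 + 1 ≤ ρ0 ∧ 8 * ρ0 + 16 ≤ n ∧ 2 * (CT * (ρ0 : ℝ)) + 2 ≤ n ∧
      ((s ^ 2 : ℕ) : ℝ) + 1 ≤ ((K * n : ℕ) : ℝ) ^ (γ / 512) ∧ (R : ℝ) ^ a ≤ s) ∧
    ∀ (xS : ℤ) (τ : Stop T.V xS) (Dom : Conf → Prop) (φ : Conf → Pt → ℝ) (p : Conf → Pt) (q : Pt),
    FMs τ Dom φ → (∀ x ∈ box q (K * n), (ρ0 : ℤ) + 1 < |x.1 - xS|) →
    (∀ ω ∈ DD T.V, Dom ω → p ω ∉ OE T (τ.E ω) ∧ IsBump (p ω) n (C0 / (n : ℝ) ^ 2) (φ ω)) →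
    |Ex T.V (fun ω => if Dom ω then gdif T τ.E τ.L φ τ.Hf ω else 0)| ≤
      C * (R : ℝ) ^ (-c) + Ex T.V (fun ω => if Dom ω then
        farS τ φ s (K * n) q ω + zoneS τ φ s (K * n) q (CT * ρ0) ω else 0) := by
  obtain ⟨γ, hγ, hγ1, h⟩ := fm_stop_am
  refine ⟨γ, hγ, hγ1, fun a0 C0 K ha0 hC0 hK => ?_⟩
  obtain ⟨a, ha, -, h'⟩ := h a0 C0 1 K ha0 hC0 one_pos hK
  exact ⟨a, ha, h'⟩

end Vale.Agent.P155.NT743
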