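import Vale.Agent.P155.NT743.Par2
import Vale.Agent.P155.NT905.First
import Vale.Agent.P155.NT905.LaySum
import Vale.Agent.P155.S743.EvMain

/-!
# P155, NT, block B2: the first moment of the mass of an explored loop
-/

namespace Vale.Agent.P155.NT743

open Finset SW HT T905 T802 J S743 G45 H904 H12 S862 E4 NT905 T862

/-- the data of one time of an exploration: `E` the explored set, `L` the loop of the tip, `φ` a
test function -/
structure FMd (T : Temp) (X : Expl) (Dom : Conf → Prop) (E L : Conf → Set Pt)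
    (φ : Conf → Pt → ℝ) : Prop where
  expl : IsExpl T.V X
  domA : ∀ ω ∈ DD T.V, ∀ ω' ∈ atom T.V X ω, (Dom ω' ↔ Dom ω)
  domU : UInv T.V Dom
  EA : ∀ ω ∈ DD T.V, Dom ω → ∀ ω' ∈ atom T.V X ω, E ω' = E ω
  EU : ∀ ω ∈ DD T.V, Dom ω → ∀ ω' ∈ DD T.V, UEq ω ω' → E ω' = E ω
  φA : ∀ ω ∈ DD T.V, Dom ω → ∀ ω' ∈ atom T.V X ω, φ ω' = φ ω
  φU : ∀ ω ∈ DD T.V, Dom ω → ∀ ω' ∈ DD T.V, UEq ω ω' → φ ω' = φ ω
  loop : StLoop T.V X Dom L
  cp : ∀ ω ∈ DD T.V, Dom ω → CPr (OE T (E ω))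
  hin : ∀ ω ∈ DD T.V, Dom ω → ∀ v : Pt,
    (∀ f : Pt, v.1 - 1 ≤ f.1 → f.1 ≤ v.1 → v.2 - 1 ≤ f.2 → f.2 ≤ v.2 → f ∈ OE T (E ω)) →
      v ∈ (X ω).1 ∧ v ∈ (X ω).2

/-- the test function `Δ(χ u)` -/
noncomputable def ff (T : Temp) (E : Conf → Set Pt) (φ : Conf → Pt → ℝ) (s : ℕ) (ω : Conf) :
    Pt → ℝ := lap (fun y => cutf (OE T (E ω)) s y * pot (OE T (E ω)) (φ ω) y)

/-- the layer function -/
noncomputable def gL (T : Temp) (E : Conf → Set Pt) (φ : Conf → Pt → ℝ) (s : ℕ) (ω : Conf) :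
    Pt → ℝ := fL (OE T (E ω)) (φ ω) (cutf (OE T (E ω)) s) (pot (OE T (E ω)) (φ ω))

theorem FMd.stage {T : Temp} {X : Expl} {Dom : Conf → Prop} {E L : Conf → Set Pt}
    {φ : Conf → Pt → ℝ} (h : FMd T X Dom E L φ) (s : ℕ) : Stage T.V X Dom (ff T E φ s) where
  expl := h.expl
  domA := h.domA
  fA := fun ω hω hd ω' hω' => by unfold ff; rw [h.EA ω hω hd ω' hω', h.φA ω hω hd ω' hω']
  domU := h.domU
  fU := fun ω hω hd ω' hω' hu => by
    unfold ff; rw [h.EU ω hω hd ω' hω' hu, h.φU ω hω hd ω' hω' hu]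
  fin := fun ω _ _ => by
    refine finite_lap (oe_finite T (E ω)) (fun x hx => ?_)
    rw [(pot_spec (oe_finite T _) _).off x hx, mul_zero]

theorem Ex_const_add {V : Finset Pt} {a : ℝ} (ha : 0 ≤ a) (g : Conf → ℝ) :
    Ex V (fun ω => a + g ω) ≤ a + Ex V g := by
  rcases (DD V).eq_empty_or_nonempty with hne | hne
  · rw [Ex_eq_avg, Ex_eq_avg, hne]
    unfold avg
    simpa using ha
  · rw [Ex_eq_avg, Ex_eq_avg, avg_add, avg_const hne]

open Classical in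
/-- Schwinger-Dyson part -/
theorem fm_me {C0 a a1 : ℝ} (ha : 0 < a) (h4 : 4 * a ≤ a1) (h1 : a1 ≤ 1) :
    ∃ c : ℝ, 0 < c ∧ ∃ C : ℝ, 0 ≤ C ∧ ∃ R0 : ℕ, 1 ≤ R0 ∧ ∀ (R : ℕ) (T : Temp), R0 ≤ R →
    Skel.Fits T R → ∀ (X : Expl) (Dom : Conf → Prop) (E L : Conf → Set Pt) (φ : Conf → Pt → ℝ),
    FMd T X Dom E L φ → ∀ (n : ℕ) (p : Conf → Pt), (R : ℝ) ^ a1 ≤ n →
    (∀ ω ∈ DD T.V, Dom ω → p ω ∉ OE T (E ω) ∧ IsBump (p ω) n (C0 / (n : ℝ) ^ 2) (φ ω)) →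
    |Ex T.V (fun ω => if Dom ω then mass ω (ff T E φ ⌈(R : ℝ) ^ a⌉₊ ω) (L ω) else 0)| ≤
      C * (R : ℝ) ^ (-c) := by
  obtain ⟨c, hc, C, hC, R0, hR0, h⟩ := me2_holds C0 1 a a1 ha h4 h1
  refine ⟨min c 1, lt_min hc one_pos, 2 * C, by positivity, R0, hR0, ?_⟩
  intro R T hR hfit X Dom E L φ hd n p hn hb
  obtain ⟨B, hB0, hB, h⟩ := h R hR T hfit
  have hRr : (1 : ℝ) ≤ R := by exact_mod_cast hR0.trans hR
  have h5 := first_eval (hd.stage ⌈(R : ℝ) ^ a⌉₊) hd.loop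
  have hRc : 0 ≤ C * (R : ℝ) ^ (-c) := by positivity
  have h6 : Ex T.V (fun ω => if Dom ω then
      |cEx T.V X (fun ω' => hf ω' (ff T E φ ⌈(R : ℝ) ^ a⌉₊ ω)) ω| else 0) ≤
      Ex T.V (fun ω => C * (R : ℝ) ^ (-c) + cEx T.V X B ω) := by
    refine J.Ex_mono fun ω hω => ?_
    have hB1 : 0 ≤ cEx T.V X B ω := cEx_nonneg (fun _ _ => hB0 _)
    by_cases h1 : Dom ω
    · rw [if_pos h1]
      obtain ⟨hp, hbump⟩ := hb ω hω h1
      exact (h X hd.expl ω hω (OE T (E ω)) (p ω) n (φ ω) (pot (OE T (E ω)) (φ ω))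
        (fun f hf => hf.1) (hd.cp ω hω h1) hp (hd.hin ω hω h1) hn hbump
        (pot_spec (oe_finite T _) _)).1
    · rw [if_neg h1]
      positivity
  refine h5.trans (h6.trans ((Ex_const_add hRc _).trans ?_))
  rw [Ex_cEx hd.expl]
  have e1 : (R : ℝ) ^ (-c) ≤ (R : ℝ) ^ (-(min c 1)) :=
    Real.rpow_le_rpow_of_exponent_le hRr (by linarith [min_le_left c 1])
  have e2 : (R : ℝ) ^ (-(1 : ℝ)) ≤ (R : ℝ) ^ (-(min c 1)) :=
    Real.rpow_le_rpow_of_exponent_le hRr (by linarith [min_le_right c 1])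
  have e3 := mul_le_mul_of_nonneg_left e1 hC
  have e4 := mul_le_mul_of_nonneg_left e2 hC
  linarith

open Classical in
/-- difference of the mass of `φ` in `L` and of its harmonic value, on the unexplored faces -/
noncomputable def gdif (T : Temp) (E L : Conf → Set Pt) (φ H : Conf → Pt → ℝ) (ω : Conf) : ℝ :=
  ∑ x ∈ (oe_finite T (E ω)).toFinset, φ ω x * ((if surr ω (L ω) x then 1 else 0) - H ω x)

/-- exact splitting -/
theorem gdif_eq {T : Temp} {E L : Conf → Set Pt} {φ H : Conf → Pt → ℝ} {s : ℕ} (hs : 8 ≤ s)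
    (ω : Conf) :
    gdif T E L φ H ω = -mass ω (ff T E φ s ω) (L ω) + (mass ω (gL T E φ s ω) (L ω) -
      ∑ x ∈ (oe_finite T (E ω)).toFinset, φ ω x * H ω x) := by
  classical
  have hO := oe_finite T (E ω)
  have hcut : IsCut (OE T (E ω)) s (32 ^ 4) (cutf (OE T (E ω)) s) :=
    cutf_isCut (exists_notMem hO) hs le_rfl
  have hu := pot_spec hO (φ ω)
  have h0 := fL_zero_off hO (by omega : 1 ≤ s) hcut hu
  have h1 : ∀ x, x ∉ hO.toFinset → ff T E φ s ω x = 0 := by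
    intro x hx
    have h2 := h0 x hx
    unfold fL at h2
    rw [Set.Finite.mem_toFinset] at hx
    rw [if_neg hx, zero_add] at h2
    exact h2
  have h3 : mass ω (gL T E φ s ω) (L ω) =
      ∑ x ∈ hO.toFinset, gL T E φ s ω x * (if surr ω (L ω) x then 1 else 0) :=
    mass_eq_sum h0 ω (L ω)
  have h4 : mass ω (ff T E φ s ω) (L ω) =
      ∑ x ∈ hO.toFinset, ff T E φ s ω x * (if surr ω (L ω) x then 1 else 0) :=
    mass_eq_sum h1 ω (L ω)
  rw [h3, h4]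
  unfold gdif
  rw [← Finset.sum_neg_distrib, ← Finset.sum_sub_distrib, ← Finset.sum_add_distrib]
  refine Finset.sum_congr rfl fun x hx => ?_
  rw [Set.Finite.mem_toFinset] at hx
  have h5 : gL T E φ s ω x = φ ω x + ff T E φ s ω x := by
    unfold gL fL ff
    rw [if_pos hx]
  rw [h5]
  ring

open Classical in
/-- the bad event of the two-strand errors -/
def BadL (T : Temp) (N n s ρ0 D : ℕ) (q : Pt) (C0 γ CT : ℝ) (ω : Conf) : Prop :=
  ∃ (O : Set Pt) (p : Pt) (φ v χ : Pt → ℝ), O.Finite ∧ CPr O ∧ p ∉ O ∧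
    IsCut O s (32 ^ 4) χ ∧ (∀ y, |φ y| ≤ E4.dens C0 p n y) ∧ IsGreen O φ v ∧
    CT * (((N : ℝ) / n) ^ γ * (N : ℝ) ^ (-(γ ^ 2 / 128))) <
      ∑ x ∈ (box q N).filter (fun x => CT * ρ0 ≤ dF T.faceSet x ∧
        TwoVisit (fun _ : Fin 1 => box x (D + 1)) (res T.V (box x ρ0) ω)), |fL O φ χ v x|

open Classical in
/-- sum of the layer function over a set -/
noncomputable def sumOn (T : Temp) (E : Conf → Set Pt) (φ : Conf → Pt → ℝ) (s : ℕ)
    (B : Conf → Set Pt) (ω : Conf) : ℝ :=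
  ∑ x ∈ (oe_finite T (E ω)).toFinset, (if x ∈ B ω then |gL T E φ s ω x| else 0)

theorem sumOn_nonneg (T : Temp) (E : Conf → Set Pt) (φ : Conf → Pt → ℝ) (s : ℕ)
    (B : Conf → Set Pt) (ω : Conf) : 0 ≤ sumOn T E φ s B ω := by
  unfold sumOn
  refine Finset.sum_nonneg fun x _ => ?_
  split_ifs
  · exact abs_nonneg _
  · exact le_rfl

open Classical in
/-- deterministic part: the layer -/
theorem layer_part {β : ℝ} (hβ : 0 < β) (hSD : SupDecay 2 β) {T : Temp} {ω : Conf}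
    (hω : ω ∈ DD T.V) {E W L : Conf → Set Pt} {φ H : Conf → Pt → ℝ} (hL : L ω ∈ Loops ω)
    (hCP : CPr (OE T (E ω))) (h01 : ∀ x, 0 ≤ H ω x ∧ H ω x ≤ 1)
    (harm : ∀ x ∈ OE T (E ω), lap (H ω) x = 0)
    (hE : ∀ a ∈ E ω, ∀ b, b ∉ W ω → (b = ω.1 a ∨ b = ω.2 a) → b ∈ E ω) {N n s ρ0 D : ℕ} {q : Pt}
    {B : Conf → Set Pt} {C0 γ CT M : ℝ} {p : Pt} (hp : p ∉ OE T (E ω))
    (hφ : ∀ y, |φ ω y| ≤ E4.dens C0 p n y)
    (hG : ∀ x ∈ OE T (E ω), x ∉ B ω → (x ∈ box q N ∧ CT * ρ0 ≤ dF T.faceSet x) ∧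
      (dF (OE T (E ω)) x ≤ 2 * s → GoodPt T ω (E ω) (W ω) (L ω) (H ω) ρ0 D x))
    (hs : 8 ≤ s) (hsD : D = s ^ 2) (hCT : 0 ≤ CT)
    (hM : ∀ S : Finset Pt, ∑ x ∈ S, |gL T E φ s ω x| ≤ M) :
    |mass ω (gL T E φ s ω) (L ω) - ∑ x ∈ (oe_finite T (E ω)).toFinset, φ ω x * H ω x| ≤
      sumOn T E φ s B ω + CT * (((N : ℝ) / n) ^ γ * (N : ℝ) ^ (-(γ ^ 2 / 128))) +
      2 * (6 / (s : ℝ)) ^ β * M + (if BadL T N n s ρ0 D q C0 γ CT ω then 3 * M else 0) := by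
  have hO := oe_finite T (E ω)
  have hM0 : 0 ≤ M := by simpa using hM ∅
  have hcut : IsCut (OE T (E ω)) s (32 ^ 4) (cutf (OE T (E ω)) s) :=
    cutf_isCut (exists_notMem hO) hs le_rfl
  have hu := pot_spec hO (φ ω)
  have hs0 : (0 : ℝ) < s := by
    have : 0 < s := by omega
    exact_mod_cast this
  have h4s : 4 * s ≤ D := by rw [hsD]; nlinarith
  by_cases hbad : BadL T N n s ρ0 D q C0 γ CT ω
  · -- crude bound
    rw [if_pos hbad]
    obtain ⟨U, hU⟩ : ∃ U : Set Pt, ∀ x, x ∈ U := ⟨Set.univ, Set.mem_univ⟩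
    have h := layer_sum (Bad := U) (ρ0 := ρ0) (D := D) hβ hSD hω hL hO hCP h01 harm hE
      (fun x _ hx => absurd (hU x) hx) (by omega) h4s hcut hu
    have e1 : ∑ x ∈ hO.toFinset, (if x ∈ U then
        |fL (OE T (E ω)) (φ ω) (cutf (OE T (E ω)) s) (pot (OE T (E ω)) (φ ω)) x| else 0) ≤ M := by
      refine le_trans (le_of_eq ?_) (hM hO.toFinset)
      exact Finset.sum_congr rfl fun x _ => if_pos (hU x)
    have e2 : ∑ x ∈ hO.toFinset, (if x ∉ U ∧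
        TwoVisit (fun _ : Fin 1 => box x (D + 1)) (res T.V (box x ρ0) ω) then
        |fL (OE T (E ω)) (φ ω) (cutf (OE T (E ω)) s) (pot (OE T (E ω)) (φ ω)) x| else 0) = 0 := by
      refine Finset.sum_eq_zero fun x _ => if_neg ?_
      rintro ⟨h1, -⟩
      exact h1 (hU x)
    have e3 : 2 * ((2 * (s : ℝ) + 1) / ((D - 2 * s : ℕ) + 1)) ^ β *
        ∑ x ∈ hO.toFinset, |fL (OE T (E ω)) (φ ω) (cutf (OE T (E ω)) s)
          (pot (OE T (E ω)) (φ ω)) x| ≤ 2 * M := by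
      refine mul_le_mul ?_ (hM hO.toFinset) (Finset.sum_nonneg fun _ _ => abs_nonneg _)
        (by norm_num)
      have : ((2 * (s : ℝ) + 1) / ((D - 2 * s : ℕ) + 1)) ^ β ≤ 1 := by
        refine Real.rpow_le_one (by positivity) ?_ hβ.le
        rw [div_le_one (by positivity)]
        have : 2 * s ≤ D - 2 * s := by omega
        have : (2 * s : ℝ) ≤ ((D - 2 * s : ℕ) : ℝ) := by exact_mod_cast this
        linarith
      linarith
    rw [e2] at h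
    have h0 := sumOn_nonneg T E φ s B ω
    have h1 : 0 ≤ 2 * (6 / (s : ℝ)) ^ β * M := by positivity
    have h2 : |mass ω (gL T E φ s ω) (L ω) -
        ∑ x ∈ (oe_finite T (E ω)).toFinset, φ ω x * H ω x| ≤ 3 * M := by
      refine h.trans ?_
      linarith
    have h3 : 0 ≤ CT * (((N : ℝ) / n) ^ γ * (N : ℝ) ^ (-(γ ^ 2 / 128))) := by positivity
    linarith
  · rw [if_neg hbad]
    have h := layer_sum (Bad := B ω) (ρ0 := ρ0) (D := D) hβ hSD hω hL hO hCP h01 harm hE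
      (fun x hx hxB hd => (hG x hx hxB).2 hd) (by omega) h4s hcut hu
    have e2 : ∑ x ∈ hO.toFinset, (if x ∉ B ω ∧
        TwoVisit (fun _ : Fin 1 => box x (D + 1)) (res T.V (box x ρ0) ω) then
        |fL (OE T (E ω)) (φ ω) (cutf (OE T (E ω)) s) (pot (OE T (E ω)) (φ ω)) x| else 0) ≤
        CT * (((N : ℝ) / n) ^ γ * (N : ℝ) ^ (-(γ ^ 2 / 128))) := by
      by_contra hcon
      push Not at hcon
      refine hbad ⟨OE T (E ω), p, φ ω, pot (OE T (E ω)) (φ ω), cutf (OE T (E ω)) s, hO, hCP, hp,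
        hcut, hφ, hu, lt_of_lt_of_le hcon ?_⟩
      rw [← Finset.sum_filter]
      refine Finset.sum_le_sum_of_subset_of_nonneg ?_ (fun _ _ _ => abs_nonneg _)
      intro x hx
      rw [Finset.mem_filter] at hx ⊢
      obtain ⟨h1, h2, h3⟩ := hx
      rw [Set.Finite.mem_toFinset] at h1
      obtain ⟨⟨g1, g2⟩, -⟩ := hG x h1 h2
      exact ⟨g1, g2, h3⟩
    have e3 : 2 * ((2 * (s : ℝ) + 1) / ((D - 2 * s : ℕ) + 1)) ^ β *
        ∑ x ∈ hO.toFinset, |fL (OE T (E ω)) (φ ω) (cutf (OE T (E ω)) s)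
          (pot (OE T (E ω)) (φ ω)) x| ≤ 2 * (6 / (s : ℝ)) ^ β * M := by
      refine mul_le_mul ?_ (hM hO.toFinset) (Finset.sum_nonneg fun _ _ => abs_nonneg _)
        (by positivity)
      refine mul_le_mul_of_nonneg_left (Real.rpow_le_rpow (by positivity) ?_ hβ.le) (by norm_num)
      rw [div_le_div_iff₀ (by positivity) hs0]
      have h1 : (8 : ℝ) ≤ s := by exact_mod_cast hs
      have h2 : ((D - 2 * s : ℕ) : ℝ) = (s : ℝ) ^ 2 - 2 * s := by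
        rw [hsD, Nat.cast_sub (by nlinarith)]
        push_cast
        ring
      rw [h2]
      nlinarith
    refine h.trans ?_
    rw [add_zero]
    exact add_le_add (add_le_add (le_of_eq rfl) e2) e3

/-- change of scale of a bump -/
theorem bump_scale {p : Pt} {n K : ℕ} {C0 : ℝ} {φ : Pt → ℝ} (hK : 1 ≤ K) (hn : 1 ≤ n)
    (hC0 : 0 ≤ C0) (h : IsBump p n (C0 / (n : ℝ) ^ 2) φ) :
    IsBump p (K * n) (C0 * (K : ℝ) ^ 6 / ((K * n : ℕ) : ℝ) ^ 2) φ := by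
  have hK1 : (1 : ℝ) ≤ K := by exact_mod_cast hK
  have hK0 : (0 : ℝ) < K := by linarith
  have hn0 : (0 : ℝ) < n := by exact_mod_cast hn
  constructor
  · intro y hy
    apply h.1 y
    intro h1
    apply hy
    rw [mem_box'] at h1 ⊢
    have : (n : ℤ) ≤ ((K * n : ℕ) : ℤ) := by exact_mod_cast Nat.le_mul_of_pos_left n hK
    exact ⟨h1.1.trans this, h1.2.trans this⟩
  · intro a b hab y
    refine (h.2 a b hab y).trans ?_
    push_cast
    rw [mul_inv, mul_pow, mul_pow]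
    have h1 : (1 : ℝ) ≤ (K : ℝ) ^ 4 * ((K : ℝ)⁻¹) ^ (a + b) := by
      rw [inv_pow, ← div_eq_mul_inv, le_div_iff₀ (by positivity), one_mul]
      exact pow_le_pow_right₀ hK1 hab
    calc C0 / (n : ℝ) ^ 2 * ((n : ℝ)⁻¹) ^ (a + b)
        ≤ (C0 / (n : ℝ) ^ 2 * ((n : ℝ)⁻¹) ^ (a + b)) * ((K : ℝ) ^ 4 * ((K : ℝ)⁻¹) ^ (a + b)) :=
          le_mul_of_one_le_right (by positivity) h1
      _ = _ := by
          field_simp

/-- the caller's data at one time -/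
structure FMg (T : Temp) (Dom : Conf → Prop) (E W L : Conf → Set Pt) (φ H : Conf → Pt → ℝ)
    (B : Conf → Set Pt) (p : Conf → Pt) (q : Pt) (N n s ρ0 : ℕ) (C0 CT : ℝ) : Prop where
  bump : ∀ ω ∈ DD T.V, Dom ω → p ω ∉ OE T (E ω) ∧ IsBump (p ω) n (C0 / (n : ℝ) ^ 2) (φ ω)
  h01 : ∀ ω ∈ DD T.V, Dom ω → ∀ x, 0 ≤ H ω x ∧ H ω x ≤ 1
  harm : ∀ ω ∈ DD T.V, Dom ω → ∀ x ∈ OE T (E ω), lap (H ω) x = 0
  clos : ∀ ω ∈ DD T.V, Dom ω → ∀ a ∈ E ω, ∀ b, b ∉ W ω → (b = ω.1 a ∨ b = ω.2 a) → b ∈ E ω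
  good : ∀ ω ∈ DD T.V, Dom ω → ∀ x ∈ OE T (E ω), x ∉ B ω →
    (x ∈ box q N ∧ CT * ρ0 ≤ dF T.faceSet x) ∧
      (dF (OE T (E ω)) x ≤ 2 * s → GoodPt T ω (E ω) (W ω) (L ω) (H ω) ρ0 (s ^ 2) x)

open Classical in
/-- **B2: the first-moment identity.** -/
theorem fm : ∃ γ : ℝ, 0 < γ ∧ γ ≤ 1 ∧ ∀ (a0 C0 : ℝ) (K : ℕ), 0 < a0 → 0 ≤ C0 → 1 ≤ K →
    ∃ a : ℝ, 0 < a ∧ ∃ CT : ℝ, 0 < CT ∧ ∃ c : ℝ, 0 < c ∧ ∃ C : ℝ, 0 ≤ C ∧ ∃ R0 : ℕ, 1 ≤ R0 ∧
    ∀ (R n : ℕ) (T : Temp), R0 ≤ R → Skel.Fits T R → (R : ℝ) ^ a0 ≤ n → n ≤ R → ∀ s ρ0 : ℕ,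
    s = ⌈((K * R : ℕ) : ℝ) ^ a⌉₊ → ρ0 = ⌈((K * n : ℕ) : ℝ) ^ (1 - γ ^ 2 / 1024)⌉₊ →
    (8 ≤ s ∧ s ^ 2 + 1 ≤ ρ0 ∧ 8 * ρ0 + 16 ≤ n ∧ 2 * (CT * (ρ0 : ℝ)) + 2 ≤ n) ∧
    ∀ (X : Expl) (Dom : Conf → Prop) (E W L : Conf → Set Pt) (φ H : Conf → Pt → ℝ)
      (B : Conf → Set Pt) (p : Conf → Pt) (q : Pt),
    FMd T X Dom E L φ → FMg T Dom E W L φ H B p q (K * n) n s ρ0 C0 CT →
    |Ex T.V (fun ω => if Dom ω then gdif T E L φ H ω else 0)| ≤
      C * (R : ℝ) ^ (-c) + Ex T.V (fun ω => if Dom ω then sumOn T E φ s B ω else 0) := by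
  obtain ⟨β, hβ, hSD, -⟩ := G1.decay
  obtain ⟨γ, hγ, hγ1, htwo⟩ := two_err
  obtain ⟨γ', hγ', hγ1', hmass⟩ := mass_meso
  refine ⟨γ, hγ, hγ1, ?_⟩
  intro a0 C0 K ha0 hC0 hK
  have ha01 : 0 < min a0 1 := lt_min ha0 one_pos
  obtain ⟨CT, hCT, htwo⟩ := htwo (min a0 1) 1 C0 (32 ^ 4) ha01 one_pos hC0
  obtain ⟨M, hM0, hmass⟩ := hmass C0 (32 ^ 4) hC0
  obtain ⟨a, ha, ha8, R1, hR1, hsc⟩ := scales2 ha0 hγ hγ1 hCT hK
  obtain ⟨c1, hc1, C1, hC1, R0, hR0, hme⟩ := fm_me (C0 := C0 * (K : ℝ) ^ 6) ha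
    (by linarith : 4 * a ≤ min a0 1) (min_le_right _ _)
  obtain ⟨c, hcdef⟩ : ∃ c : ℝ, c = min (min c1 1) (min (a0 * (γ ^ 2 / 128)) (a * β)) := ⟨_, rfl⟩
  have hc0 : 0 < c := by
    rw [hcdef]
    exact lt_min (lt_min hc1 one_pos) (lt_min (by positivity) (by positivity))
  have k1 : c ≤ c1 := by rw [hcdef]; exact (min_le_left _ _).trans (min_le_left _ _)
  have k2 : c ≤ 1 := by rw [hcdef]; exact (min_le_left _ _).trans (min_le_right _ _)
  have k3 : c ≤ a0 * (γ ^ 2 / 128) := by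
    rw [hcdef]; exact (min_le_right _ _).trans (min_le_left _ _)
  have k4 : c ≤ a * β := by rw [hcdef]; exact (min_le_right _ _).trans (min_le_right _ _)
  refine ⟨a, ha, CT, hCT, c, hc0, C1 + CT * K + 2 * 6 ^ β * M + 3 * M * CT, by positivity,
    max R0 R1, hR0.trans (le_max_left _ _), ?_⟩
  intro R n T hR hfit hn hnR s ρ0 hs hρ0
  have hRR0 : R0 ≤ R := (le_max_left _ _).trans hR
  have hRR1 : R1 ≤ R := (le_max_right _ _).trans hR
  obtain ⟨s1, s2, s3, s4, s5, s6, s7, s8⟩ := hsc R hRR1 n hn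
  rw [← hs] at s1 s2 s3 s4 s7 s8
  rw [← hρ0] at s4 s5 s6
  refine ⟨⟨s1, s4, s5, s6⟩, ?_⟩
  intro X Dom E W L φ H B p q hd hg
  have hR1' : 1 ≤ R := hR0.trans hRR0
  have hRr : (1 : ℝ) ≤ R := by exact_mod_cast hR1'
  have hRpos : (0 : ℝ) < R := by linarith
  have hn1 : 1 ≤ n := by omega
  have hn0 : (0 : ℝ) < n := by exact_mod_cast hn1
  have hK1r : (1 : ℝ) ≤ K := by exact_mod_cast hK
  have hs0 : (0 : ℝ) < s := by
    have : 0 < s := by omega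
    exact_mod_cast this
  have hRK : R ≤ K * R := Nat.le_mul_of_pos_left _ hK
  have hfit' : Skel.Fits T (K * R) := fits_mono hfit hRK
  -- Schwinger-Dyson
  have hA := hme (K * R) T (hRR0.trans hRK) hfit' X Dom E L φ hd (K * n) p (scale_le hK hR1' hn)
    (fun ω hω h => ⟨(hg.bump ω hω h).1, bump_scale hK hn1 hC0 (hg.bump ω hω h).2⟩)
  rw [← hs] at hA
  have hRc : (R : ℝ) ^ (-c1) ≤ (R : ℝ) ^ (-c) := Real.rpow_le_rpow_of_exponent_le hRr (by linarith)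
  have hA' : C1 * ((K * R : ℕ) : ℝ) ^ (-c1) ≤ C1 * (R : ℝ) ^ (-c) := by
    refine mul_le_mul_of_nonneg_left (le_trans ?_ hRc) hC1
    exact Real.rpow_le_rpow_of_nonpos hRpos (by exact_mod_cast hRK) (by linarith)
  -- the bad event
  have hP : Pr T.V (BadL T (K * n) n s ρ0 (s ^ 2) q C0 γ CT) ≤ CT * (R : ℝ) ^ (-c) := by
    have h1 := htwo (K * R) T (Nat.mul_pos hK hR1') hfit' q (K * n) n s ρ0 (s ^ 2)
      (scale_le hK hR1' hn) (Nat.mul_le_mul_left _ hnR) (Nat.le_mul_of_pos_left _ hK) (by omega)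
      s7 s2 s3 (by rw [hρ0]; exact Nat.le_ceil _)
    refine le_trans h1 (mul_le_mul_of_nonneg_left ?_ hCT.le)
    have h2 : ((K * R : ℕ) : ℝ) ^ (-(1 : ℝ)) ≤ (R : ℝ) ^ (-(1 : ℝ)) :=
      Real.rpow_le_rpow_of_nonpos hRpos (by exact_mod_cast hRK) (by norm_num)
    exact h2.trans (Real.rpow_le_rpow_of_exponent_le hRr (by linarith))
  -- the numbers
  have e1 : CT * ((((K * n : ℕ) : ℝ) / n) ^ γ * ((K * n : ℕ) : ℝ) ^ (-(γ ^ 2 / 128))) ≤
      CT * K * (R : ℝ) ^ (-c) := by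
    have h1 := num2 (CT := CT) hγ1 hCT.le hK hn1 le_rfl hR1' hn (γ := γ) (a0 := a0)
    rw [div_self hn0.ne', mul_one] at h1
    refine h1.trans (mul_le_mul_of_nonneg_left ?_ (by positivity))
    exact Real.rpow_le_rpow_of_exponent_le hRr (by linarith)
  have e2 : 2 * (6 / (s : ℝ)) ^ β * M ≤ 2 * 6 ^ β * M * (R : ℝ) ^ (-c) := by
    have h1 : (6 / (s : ℝ)) ^ β ≤ 6 ^ β * (R : ℝ) ^ (-c) := by
      calc (6 / (s : ℝ)) ^ β ≤ (6 * ((R : ℝ) ^ (-a))) ^ β := by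
            refine Real.rpow_le_rpow (by positivity) ?_ hβ.le
            rw [div_eq_mul_inv, Real.rpow_neg hRpos.le]
            refine mul_le_mul_of_nonneg_left ?_ (by norm_num)
            exact inv_anti₀ (by positivity) s8
        _ = 6 ^ β * (R : ℝ) ^ (-(a * β)) := by
            rw [Real.mul_rpow (by norm_num) (by positivity), ← Real.rpow_mul hRpos.le]
            congr 2
            ring
        _ ≤ _ := by
            refine mul_le_mul_of_nonneg_left ?_ (by positivity)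
            exact Real.rpow_le_rpow_of_exponent_le hRr (by linarith)
    calc 2 * (6 / (s : ℝ)) ^ β * M ≤ 2 * (6 ^ β * (R : ℝ) ^ (-c)) * M :=
          mul_le_mul_of_nonneg_right (mul_le_mul_of_nonneg_left h1 (by norm_num)) hM0
      _ = _ := by ring
  -- pointwise
  have key : ∀ ω ∈ DD T.V, (if Dom ω then |mass ω (gL T E φ s ω) (L ω) -
      ∑ x ∈ (oe_finite T (E ω)).toFinset, φ ω x * H ω x| else 0) ≤
      (CT * K * (R : ℝ) ^ (-c) + 2 * 6 ^ β * M * (R : ℝ) ^ (-c)) +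
      ((if Dom ω then sumOn T E φ s B ω else 0) +
        3 * M * (if BadL T (K * n) n s ρ0 (s ^ 2) q C0 γ CT ω then 1 else 0)) := by
    intro ω hω
    have hb0 : 0 ≤ 3 * M * (if BadL T (K * n) n s ρ0 (s ^ 2) q C0 γ CT ω then (1 : ℝ) else 0) := by
      split_ifs
      · positivity
      · simp
    by_cases h : Dom ω
    · rw [if_pos h, if_pos h]
      obtain ⟨hp, hbump⟩ := hg.bump ω hω h
      have hφ : ∀ y, |φ ω y| ≤ E4.dens C0 (p ω) n y := by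
        intro y
        by_cases hy : y ∈ box (p ω) n
        · have h1 := hbump.2 0 0 (by norm_num) y
          simp only [Function.iterate_zero, id_eq, add_zero, pow_zero, mul_one] at h1
          refine h1.trans (le_dens hC0 hn1 ?_)
          exact mem_box_dn905.1 hy
        · rw [hbump.1 y hy, abs_zero]
          exact dens_nonneg hC0 _ _ _
      have hO := oe_finite T (E ω)
      have hcut : IsCut (OE T (E ω)) s (32 ^ 4) (cutf (OE T (E ω)) s) :=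
        cutf_isCut (exists_notMem hO) s1 le_rfl
      obtain ⟨m1, -, -⟩ := hmass (OE T (E ω)) (p ω) n s (cutf (OE T (E ω)) s) (φ ω)
        (pot (OE T (E ω)) (φ ω)) hO (hd.cp ω hω h) hp hn1 (by omega) s7 hcut hφ
        (pot_spec hO (φ ω))
      have h2 := layer_part hβ hSD hω (E := E) (W := W) (L := L) (φ := φ) (H := H) (N := K * n)
        (n := n) (s := s) (ρ0 := ρ0) (D := s ^ 2) (q := q) (B := B) (C0 := C0) (γ := γ) (CT := CT)
        (M := M) (hd.loop.mem ω hω h) (hd.cp ω hω h) (hg.h01 ω hω h) (hg.harm ω hω h)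
        (hg.clos ω hω h) hp hφ (hg.good ω hω h) s1 rfl hCT.le m1
      have h3 : (if BadL T (K * n) n s ρ0 (s ^ 2) q C0 γ CT ω then 3 * M else 0) =
          3 * M * (if BadL T (K * n) n s ρ0 (s ^ 2) q C0 γ CT ω then (1 : ℝ) else 0) := by
        split_ifs <;> simp
      rw [h3] at h2
      linarith
    · rw [if_neg h, if_neg h]
      positivity
  have hB := H12.Ex_mono (V := T.V) key
  have hsum : Ex T.V (fun ω => (if Dom ω then sumOn T E φ s B ω else 0) +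
        3 * M * (if BadL T (K * n) n s ρ0 (s ^ 2) q C0 γ CT ω then (1 : ℝ) else 0)) =
      Ex T.V (fun ω => if Dom ω then sumOn T E φ s B ω else 0) +
        3 * M * Pr T.V (BadL T (K * n) n s ρ0 (s ^ 2) q C0 γ CT) := by
    rw [Vale.Agent.P155.E.Pr_eq_avg, Ex_eq_avg, Ex_eq_avg, avg_add, avg_mul_left]
  have hsplit : Ex T.V (fun ω => if Dom ω then gdif T E L φ H ω else 0) =
      -Ex T.V (fun ω => if Dom ω then mass ω (ff T E φ s ω) (L ω) else 0) +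
      Ex T.V (fun ω => if Dom ω then (mass ω (gL T E φ s ω) (L ω) -
        ∑ x ∈ (oe_finite T (E ω)).toFinset, φ ω x * H ω x) else 0) := by
    have h1 : ∀ ω, (if Dom ω then gdif T E L φ H ω else 0) =
        (-1) * (if Dom ω then mass ω (ff T E φ s ω) (L ω) else 0) +
        (if Dom ω then (mass ω (gL T E φ s ω) (L ω) -
        ∑ x ∈ (oe_finite T (E ω)).toFinset, φ ω x * H ω x) else 0) := by
      intro ω
      by_cases h : Dom ω
      · rw [if_pos h, if_pos h, if_pos h, gdif_eq s1 ω]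
        ring
      · rw [if_neg h, if_neg h, if_neg h]
        ring
    rw [funext h1]
    rw [Ex_eq_avg, Ex_eq_avg, Ex_eq_avg, avg_add, avg_mul_left]
    ring
  have hlast : |Ex T.V (fun ω => if Dom ω then (mass ω (gL T E φ s ω) (L ω) -
        ∑ x ∈ (oe_finite T (E ω)).toFinset, φ ω x * H ω x) else 0)| ≤
      Ex T.V (fun ω => if Dom ω then |mass ω (gL T E φ s ω) (L ω) -
        ∑ x ∈ (oe_finite T (E ω)).toFinset, φ ω x * H ω x| else 0) := by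
    refine (abs_Ex_le _).trans (le_of_eq ?_)
    congr 1
    funext ω
    split_ifs
    · rfl
    · exact abs_zero
  rw [hsplit]
  refine (abs_add_le _ _).trans ?_
  rw [abs_neg]
  have hconst := Ex_const_add (V := T.V) (a := CT * K * (R : ℝ) ^ (-c) +
    2 * 6 ^ β * M * (R : ℝ) ^ (-c)) (by positivity)
    (fun ω => (if Dom ω then sumOn T E φ s B ω else 0) +
        3 * M * (if BadL T (K * n) n s ρ0 (s ^ 2) q C0 γ CT ω then (1 : ℝ) else 0))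
  rw [hsum] at hconst
  have h9 : 3 * M * Pr T.V (BadL T (K * n) n s ρ0 (s ^ 2) q C0 γ CT) ≤
      3 * M * (CT * (R : ℝ) ^ (-c)) := mul_le_mul_of_nonneg_left hP (by positivity)
  have h10 := hlast.trans (hB.trans hconst)
  have h11 : (C1 + CT * K + 2 * 6 ^ β * M + 3 * M * CT) * (R : ℝ) ^ (-c) =
      C1 * (R : ℝ) ^ (-c) + CT * K * (R : ℝ) ^ (-c) + 2 * 6 ^ β * M * (R : ℝ) ^ (-c) +
      3 * M * (CT * (R : ℝ) ^ (-c)) := by ring
  rw [h11]
  linarith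

end Vale.Agent.P155.NT743
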