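import Vale.Agent.P155.S743.Tower

/-!
# P155, NT, block B1: first moment of the mass of a loop whose sign is explored
-/

namespace Vale.Agent.P155.NT743

open Finset J T905 HT SW S743

variable {V : Finset Pt}

/-- cross terms with an explored sign vanish -/
theorem cross_first {S : Conf → ℝ} {f : Conf → Pt → ℝ} {L : Conf → Set Pt} (hSU : UInv V S)
    (hfU : ∀ ω ∈ DD V, S ω ≠ 0 → ∀ ω' ∈ DD V, UEq ω ω' → f ω' = f ω)
    (hL : ∀ ω ∈ DD V, S ω ≠ 0 → L ω ∈ Loops ω)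
    (hLU : ∀ ω ∈ DD V, S ω ≠ 0 → ∀ ω' ∈ DD V, UEq ω ω' → L ω' = L ω) :
    ∑ q ∈ ((DD V).filter (fun ω => S ω ≠ 0)).sigma (fun ω => (LF ω).filter (fun A => A ≠ L ω)),
      S q.1 * ((sign q.1 (L q.1) : ℝ) * ((sign q.1 q.2 : ℝ) * mass q.1 (f q.1) q.2)) = 0 := by
  classical
  refine Finset.sum_involution (fun q _ => ⟨swapOn q.2 q.1, q.2⟩) ?_ ?_ ?_ ?_
  · rintro ⟨ω, A⟩ hq
    simp only [Finset.mem_sigma, Finset.mem_filter] at hq
    obtain ⟨⟨hω, hS⟩, hA, hne⟩ := hq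
    rw [mem_LF hω] at hA
    have hsw := swap_mem hω (cl_loop hA)
    simp only
    rw [hLU ω hω hS _ hsw (uEq_swap A ω), hfU ω hω hS _ hsw (uEq_swap A ω),
      sign_swap_neg hω hA Set.Subset.rfl,
      sign_swap_same (Vale.Agent.P155.L.loops_disjoint hω (hL ω hω hS) hA (Ne.symm hne)),
      mass_swap, uinv_swap hSU hω (cl_loop hA)]
    push_cast
    ring
  · rintro ⟨ω, A⟩ hq hz
    simp only [Finset.mem_sigma, Finset.mem_filter] at hq
    obtain ⟨⟨hω, hS⟩, hA, hne⟩ := hq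
    rw [mem_LF hω] at hA
    intro heq
    have heq1 : swapOn A ω = ω := congrArg Sigma.fst heq
    obtain ⟨v, hv⟩ := Vale.Agent.P155.L.loop_nonempty hA
    apply Vale.Agent.P155.L.loop_ne hω hA hv
    have := congrArg (fun c : Conf => c.1 v) heq1
    simp only [swapOn_fst_mem hv] at this
    exact this.symm
  · rintro ⟨ω, A⟩ hq
    simp only [Finset.mem_sigma, Finset.mem_filter] at hq ⊢
    obtain ⟨⟨hω, hS⟩, hA, hne⟩ := hq
    have hA' := (mem_LF hω).1 hA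
    have hsw := swap_mem hω (cl_loop hA')
    rw [LF_swap, uinv_swap hSU hω (cl_loop hA'), hLU ω hω hS _ hsw (uEq_swap A ω)]
    exact ⟨⟨hsw, hS⟩, hA, hne⟩
  · rintro ⟨ω, A⟩ _
    simp only
    rw [swapOn_swapOn]

/-- `E[S · mass f L] = E[S · sign L · h(f)]` -/
theorem Ex_mass_eq {S : Conf → ℝ} {f : Conf → Pt → ℝ} {L : Conf → Set Pt} (hSU : UInv V S)
    (hfU : ∀ ω ∈ DD V, S ω ≠ 0 → ∀ ω' ∈ DD V, UEq ω ω' → f ω' = f ω)
    (hff : ∀ ω ∈ DD V, S ω ≠ 0 → (f ω).support.Finite)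
    (hL : ∀ ω ∈ DD V, S ω ≠ 0 → L ω ∈ Loops ω)
    (hLU : ∀ ω ∈ DD V, S ω ≠ 0 → ∀ ω' ∈ DD V, UEq ω ω' → L ω' = L ω) :
    Ex V (fun ω => S ω * mass ω (f ω) (L ω)) =
      Ex V (fun ω => S ω * ((sign ω (L ω) : ℝ) * hf ω (f ω))) := by
  classical
  have key : ∑ ω ∈ DD V, S ω * ((sign ω (L ω) : ℝ) * hf ω (f ω)) =
      ∑ ω ∈ DD V, S ω * mass ω (f ω) (L ω) := by
    have e0 : ∀ g : Conf → ℝ, ∑ ω ∈ DD V, S ω * g ω =
        ∑ ω ∈ (DD V).filter (fun ω => S ω ≠ 0), S ω * g ω := by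
      intro g
      rw [Finset.sum_filter]
      refine Finset.sum_congr rfl fun ω _ => ?_
      by_cases h : S ω = 0
      · simp [h]
      · simp [h]
    rw [e0, e0]
    have e1 : ∀ ω ∈ (DD V).filter (fun ω => S ω ≠ 0),
        S ω * ((sign ω (L ω) : ℝ) * hf ω (f ω)) = S ω * mass ω (f ω) (L ω) +
        ∑ A ∈ (LF ω).filter (fun A => A ≠ L ω),
          S ω * ((sign ω (L ω) : ℝ) * ((sign ω A : ℝ) * mass ω (f ω) A)) := by
      intro ω hω
      rw [Finset.mem_filter] at hω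
      obtain ⟨hω, hS⟩ := hω
      have hLm : L ω ∈ LF ω := (mem_LF hω).2 (hL ω hω hS)
      rw [hf_eq_mass hω (hff ω hω hS), ← Finset.mul_sum, ← Finset.mul_sum, ← mul_add]
      congr 1
      rw [← Finset.sum_filter_add_sum_filter_not (LF ω) (fun A => A = L ω), mul_add]
      congr 1
      rw [Finset.filter_eq' (LF ω) (L ω), if_pos hLm, Finset.sum_singleton, ← mul_assoc]
      have h1 : (sign ω (L ω) : ℝ) * (sign ω (L ω) : ℝ) = 1 := by
        exact_mod_cast sign_sq hω (hL ω hω hS)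
      rw [h1, one_mul]
    have h2 := cross_first hSU hfU hL hLU
    rw [Finset.sum_sigma] at h2
    rw [Finset.sum_congr rfl e1, Finset.sum_add_distrib, h2, add_zero]
  unfold Ex
  rw [key]

open Classical in
/-- **B1**: the first moment of the mass of an unsigned loop whose sign is explored -/
theorem first_moment {X : Expl} (hX : IsExpl V X) {S : Conf → ℝ} {f : Conf → Pt → ℝ}
    {L : Conf → Set Pt} {B : Conf → ℝ} {δ M : ℝ} (hSA : ∀ ω ∈ DD V, ∀ ω' ∈ atom V X ω, S ω' = S ω)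
    (hSU : UInv V S) (hfA : ∀ ω ∈ DD V, S ω ≠ 0 → ∀ ω' ∈ atom V X ω, f ω' = f ω)
    (hfU : ∀ ω ∈ DD V, S ω ≠ 0 → ∀ ω' ∈ DD V, UEq ω ω' → f ω' = f ω)
    (hff : ∀ ω ∈ DD V, S ω ≠ 0 → (f ω).support.Finite)
    (hL : ∀ ω ∈ DD V, S ω ≠ 0 → L ω ∈ Loops ω)
    (hLU : ∀ ω ∈ DD V, S ω ≠ 0 → ∀ ω' ∈ DD V, UEq ω ω' → L ω' = L ω)
    (hsg : ∀ ω ∈ DD V, S ω ≠ 0 → ∀ ω' ∈ atom V X ω, sign ω' (L ω') = sign ω (L ω))
    (hM : ∀ ω ∈ DD V, |S ω| ≤ M) (hM0 : 0 ≤ M) (hδ : 0 ≤ δ) (hB : ∀ ω, 0 ≤ B ω)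
    (h : ∀ ω ∈ DD V, S ω ≠ 0 → |cEx V X (fun ω' => hf ω' (f ω)) ω| ≤ δ + cEx V X B ω) :
    |Ex V (fun ω => S ω * mass ω (f ω) (L ω))| ≤ M * (δ + Ex V B) := by
  rw [Ex_mass_eq hSU hfU hff hL hLU, ← Ex_cEx hX, ← Ex_cEx hX B]
  have key : ∀ ω ∈ DD V, |cEx V X (fun ω => S ω * ((sign ω (L ω) : ℝ) * hf ω (f ω))) ω| ≤
      M * (δ + cEx V X B ω) := by
    intro ω hω
    have hB0 : 0 ≤ cEx V X B ω := cEx_nonneg (fun _ _ => hB _)
    by_cases h0 : S ω = 0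
    · have e1 : cEx V X (fun ω => S ω * ((sign ω (L ω) : ℝ) * hf ω (f ω))) ω = 0 := by
        rw [cEx_eq_avg]
        have : avg (atom V X ω) (fun ω => S ω * ((sign ω (L ω) : ℝ) * hf ω (f ω))) =
            avg (atom V X ω) (fun _ => (0 : ℝ)) := by
          refine avg_congr (fun a ha => ?_)
          rw [hSA ω hω a ha, h0, zero_mul]
        rw [this, avg_zero]
      rw [e1, abs_zero]
      positivity
    · have e1 : cEx V X (fun ω => S ω * ((sign ω (L ω) : ℝ) * hf ω (f ω))) ω =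
          (S ω * (sign ω (L ω) : ℝ)) * cEx V X (fun ω' => hf ω' (f ω)) ω := by
        rw [cEx_eq_avg, cEx_eq_avg, ← avg_mul_left]
        refine avg_congr (fun a ha => ?_)
        rw [hSA ω hω a ha, hsg ω hω h0 a ha, hfA ω hω h0 a ha]
        ring
      have hs : |(sign ω (L ω) : ℝ)| = 1 := by
        have h1 : (sign ω (L ω) : ℝ) * (sign ω (L ω) : ℝ) = 1 := by
          exact_mod_cast sign_sq hω (hL ω hω h0)
        have h2 : |(sign ω (L ω) : ℝ)| * |(sign ω (L ω) : ℝ)| = 1 := by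
          rw [← abs_mul, h1, abs_one]
        nlinarith [abs_nonneg (sign ω (L ω) : ℝ)]
      rw [e1, abs_mul, abs_mul, hs, mul_one]
      exact mul_le_mul (hM ω hω) (h ω hω h0) (abs_nonneg _) hM0
  rcases (DD V).eq_empty_or_nonempty with hne | hne
  · rw [Ex_eq_avg, Ex_eq_avg, hne]
    unfold avg
    simp only [Finset.sum_empty, smul_zero, abs_zero, add_zero]
    positivity
  · have h1 : Ex V (fun ω => M * (δ + cEx V X B ω)) = M * (δ + Ex V (cEx V X B)) := by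
      rw [Ex_eq_avg, Ex_eq_avg, avg_mul_left, avg_add, avg_const hne]
    rw [← h1, abs_le]
    constructor
    · have h2 : Ex V (fun ω => -(M * (δ + cEx V X B ω))) ≤
          Ex V (cEx V X (fun ω => S ω * ((sign ω (L ω) : ℝ) * hf ω (f ω)))) :=
        Ex_mono (fun ω hω => (abs_le.1 (key ω hω)).1)
      have h3 : Ex V (fun ω => -(M * (δ + cEx V X B ω))) = -Ex V (fun ω => M * (δ + cEx V X B ω)) := by
        have := avg_mul_left (DD V) (-1) (fun ω => M * (δ + cEx V X B ω))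
        simp only [neg_mul, one_mul] at this
        exact this
      linarith
    · exact Ex_mono (fun ω hω => (abs_le.1 (key ω hω)).2)

end Vale.Agent.P155.NT743
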