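import Vale.Agent.P155.S743.Par

/-!
# P155, NT: choice of the scales for the first moments
-/

namespace Vale.Agent.P155.NT743

open Filter Topology S743

/-- **the scales** `s = ⌈(K R)^a⌉`, `D = s²`, `ρ0 = ⌈(K n)^{1 - γ²/1024}⌉`. -/
theorem scales2 {a0 γ CT : ℝ} (ha0 : 0 < a0) (hγ : 0 < γ) (hγ1 : γ ≤ 1) (hCT : 0 < CT) {K : ℕ}
    (hK : 1 ≤ K) : ∃ a : ℝ, 0 < a ∧ 8 * a ≤ min a0 1 ∧ ∃ R1 : ℕ, 1 ≤ R1 ∧ ∀ R : ℕ, R1 ≤ R →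
    ∀ n : ℕ, (R : ℝ) ^ a0 ≤ n →
    8 ≤ ⌈((K * R : ℕ) : ℝ) ^ a⌉₊ ∧ (⌈((K * R : ℕ) : ℝ) ^ a⌉₊ : ℝ) ≤ ((K * n : ℕ) : ℝ) ^ (γ / 512) ∧
    ((⌈((K * R : ℕ) : ℝ) ^ a⌉₊ ^ 2 : ℕ) : ℝ) + 1 ≤ ((K * n : ℕ) : ℝ) ^ (γ / 512) ∧
    ⌈((K * R : ℕ) : ℝ) ^ a⌉₊ ^ 2 + 1 ≤ ⌈((K * n : ℕ) : ℝ) ^ (1 - γ ^ 2 / 1024)⌉₊ ∧
    8 * ⌈((K * n : ℕ) : ℝ) ^ (1 - γ ^ 2 / 1024)⌉₊ + 16 ≤ n ∧
    2 * (CT * (⌈((K * n : ℕ) : ℝ) ^ (1 - γ ^ 2 / 1024)⌉₊ : ℝ)) + 2 ≤ n ∧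
    8 * ⌈((K * R : ℕ) : ℝ) ^ a⌉₊ ≤ n ∧ (R : ℝ) ^ a ≤ (⌈((K * R : ℕ) : ℝ) ^ a⌉₊ : ℝ) := by
  obtain ⟨a, ha, ha8, R1, hR1, h⟩ := scales ha0 hγ hγ1 hCT hK
  refine ⟨a / 2, by positivity, by linarith, max R1 ⌈(8 : ℝ) ^ (2 / a)⌉₊,
    hR1.trans (le_max_left _ _), ?_⟩
  intro R hR n hn
  have hR1' : R1 ≤ R := (le_max_left _ _).trans hR
  have hR2 : (8 : ℝ) ^ (2 / a) ≤ R := (Nat.le_ceil _).trans (by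
    exact_mod_cast (le_max_right _ _).trans hR)
  obtain ⟨g1, g2, g3, g4, g5, g6, g7⟩ := h R hR1' n hn
  have hR0 : 1 ≤ R := hR1.trans hR1'
  have hRr : (1 : ℝ) ≤ R := by exact_mod_cast hR0
  have hK1r : (1 : ℝ) ≤ K := by exact_mod_cast hK
  have hKR : (R : ℝ) ≤ ((K * R : ℕ) : ℝ) := by
    push_cast
    nlinarith
  have hKR1 : (1 : ℝ) ≤ ((K * R : ℕ) : ℝ) := hRr.trans hKR
  have hRpos : (0 : ℝ) < R := by linarith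
  set S := ⌈((K * R : ℕ) : ℝ) ^ a⌉₊ with hS
  set s := ⌈((K * R : ℕ) : ℝ) ^ (a / 2)⌉₊ with hs
  set z := ((K * R : ℕ) : ℝ) ^ (a / 2) with hz
  have hzz : z * z = ((K * R : ℕ) : ℝ) ^ a := by
    rw [hz, ← Real.rpow_add (by linarith)]
    congr 1
    ring
  have hz8 : 8 ≤ z := by
    have h1 : ((8 : ℝ) ^ (2 / a)) ^ (a / 2) = 8 := by
      rw [← Real.rpow_mul (by norm_num)]
      have : 2 / a * (a / 2) = 1 := by field_simp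
      rw [this, Real.rpow_one]
    calc (8 : ℝ) = ((8 : ℝ) ^ (2 / a)) ^ (a / 2) := h1.symm
      _ ≤ z := Real.rpow_le_rpow (by positivity) (hR2.trans hKR) (by positivity)
  have hs1 : z ≤ s := Nat.le_ceil _
  have hs2 : (s : ℝ) < z + 1 := Nat.ceil_lt_add_one (by positivity)
  have hS1 : z * z ≤ S := by rw [hzz]; exact Nat.le_ceil _
  have hsS : (s : ℝ) ^ 2 ≤ 2 * S := by nlinarith
  have hsS' : s ^ 2 ≤ 2 * S := by exact_mod_cast hsS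
  have h3 : ((s ^ 2 : ℕ) : ℝ) + 1 ≤ ((2 * S + 1 : ℕ) : ℝ) + 1 := by
    have : s ^ 2 + 1 ≤ 2 * S + 1 + 1 := by omega
    exact_mod_cast this
  have hsle : (s : ℝ) ≤ ((s ^ 2 : ℕ) : ℝ) + 1 := by
    push_cast
    nlinarith
  have hs8 : (8 : ℝ) ≤ s := hz8.trans hs1
  have hs8' : 8 ≤ s := by exact_mod_cast hs8
  have hs8s : 8 * s ≤ s ^ 2 := by nlinarith
  refine ⟨hs8', (hsle.trans h3).trans g3, h3.trans g3, ?_, g5, g6, ?_, ?_⟩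
  · omega
  · omega
  · refine le_trans ?_ hs1
    exact Real.rpow_le_rpow hRpos.le hKR (by positivity)

end Vale.Agent.P155.NT743
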